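import Vale.Agent.P042.R2.H757.Spec

set_option autoImplicit false

/-! # P042: row ALL -/

namespace Vale.Agent.P042.H411

open Finset Vale.Agent.P042.H757

theorem kpow {k : ℕ} (P0 : Finset ℕ) (hP : ∀ p ∈ P0, p.Prime) (m : ℕ) (hm : 1 ≤ m)
    (hk : 1 ≤ k) (hf : ∀ p : ℕ, p.Prime → p ∣ m → p ∈ P0) :
    ∃ D w : ℕ, 1 ≤ D ∧ D ≤ ∏ p ∈ P0, p ^ k ∧ 1 ≤ w ∧ m * D = w ^ k := by
  refine ⟨∏ p ∈ P0, p ^ (k - m.factorization p % k), ∏ p ∈ P0, p ^ (m.factorization p / k + 1),
    ?_, ?_, ?_, ?_⟩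
  · exact Nat.succ_le_of_lt (Finset.prod_pos fun p hp => pow_pos (hP p hp).pos _)
  · exact Finset.prod_le_prod' fun p hp =>
      Nat.pow_le_pow_right (hP p hp).pos (Nat.sub_le _ _)
  · exact Nat.succ_le_of_lt (Finset.prod_pos fun p hp => pow_pos (hP p hp).pos _)
  · have h1 : m = ∏ p ∈ P0, p ^ (m.factorization p) := by
      conv_lhs => rw [← Nat.prod_factorization_pow_eq_self (n := m) (by omega)]
      refine Finsupp.prod_of_support_subset _ ?_ _ (fun p _ => pow_zero p)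
      intro p hp
      rw [Nat.support_factorization, Nat.mem_primeFactors] at hp
      exact hf p hp.1 hp.2.1
    have h4 : m * ∏ p ∈ P0, p ^ (k - m.factorization p % k) =
        (∏ p ∈ P0, p ^ (m.factorization p)) * ∏ p ∈ P0, p ^ (k - m.factorization p % k) := by
      rw [← h1]
    rw [h4, ← Finset.prod_mul_distrib, ← Finset.prod_pow]
    refine Finset.prod_congr rfl fun p _ => ?_
    rw [← pow_add, ← pow_mul]
    congr 1
    have h2 := Nat.mod_add_div (m.factorization p) k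
    have h3 := Nat.mod_lt (m.factorization p) (show k > 0 by omega)
    rw [add_mul, mul_comm (m.factorization p / k) k]
    omega

theorem one_colour (h : StPair) (a k : ℕ) (ha : 1 ≤ a) (hk : 2 ≤ k) (r : ℕ) (col : ℕ → Fin r)
    (v : Fin r) (hv : Few col v ∨ Rich col v) :
    ∃ Q : ℕ, ∀ (N : ℕ) (A : Finset ℕ), A ⊆ Icc 1 N → ExchAll col N A → MonoFree a k A →
      ∀ n ∈ A, ∀ p : ℕ, p.Prime → p ∣ n → col p = v → p ≤ Q := by
  classical
  rcases hv with hv | hv
  · obtain ⟨Q, hQ⟩ := hv.bddAbove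
    exact ⟨Q, fun _ _ _ _ _ _ _ p hp _ hc => hQ ⟨hp, hc⟩⟩
  · let P0 : Finset ℕ := (Finset.univ.image (fun w : Fin r =>
      sInf {p : ℕ | p.Prime ∧ col p = w})).filter Nat.Prime
    have hP0 : ∀ p ∈ P0, p.Prime := fun p hp => (Finset.mem_filter.1 hp).2
    have hleast : ∀ p : ℕ, p.Prime → p ∉ P0 → ∃ p0, p0.Prime ∧ col p0 = col p ∧ p0 < p := by
      intro p hp hn
      have hne : {p' : ℕ | p'.Prime ∧ col p' = col p}.Nonempty := ⟨p, hp, rfl⟩
      have h1 := Nat.sInf_mem hne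
      refine ⟨sInf {p' : ℕ | p'.Prime ∧ col p' = col p}, h1.1, h1.2, ?_⟩
      refine lt_of_le_of_ne (Nat.sInf_le ⟨hp, rfl⟩) fun he => hn ?_
      rw [Finset.mem_filter, Finset.mem_image]
      exact ⟨⟨col p, Finset.mem_univ _, he⟩, hp⟩
    obtain ⟨N0, hN0⟩ := h a k ha hk r col v hv (1 / 2) (by norm_num) (by norm_num)
    let D0 : ℕ := ∏ p ∈ P0, p ^ k
    let Y : ℕ := max N0 ((a * D0) ^ 2)
    refine ⟨Y, ?_⟩
    intro N A hA hE hM n hn q hq hqn hqv
    by_contra hlt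
    have hlt : Y < q := not_le.1 hlt
    have hex : ∃ m, m * q ∈ A := by
      obtain ⟨c, rfl⟩ := hqn
      exact ⟨c, by rwa [mul_comm]⟩
    let m := Nat.find hex
    have hmA : m * q ∈ A := Nat.find_spec hex
    have hmin : ∀ m', m' * q ∈ A → m ≤ m' := fun m' h' => Nat.find_min' hex h'
    have hmq := Finset.mem_Icc.1 (hA hmA)
    have hm : 1 ≤ m := by
      rcases Nat.eq_zero_or_pos m with h0 | h0
      · rw [h0, zero_mul] at hmq; omega
      · exact h0
    have hfac : ∀ p : ℕ, p.Prime → p ∣ m → p ∈ P0 := by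
      intro p hp hpm
      by_contra hn
      obtain ⟨p0, hp0, hc0, hl⟩ := hleast p hp hn
      obtain ⟨m', hm'⟩ := hpm
      have hm'pos : 0 < m' := by
        rcases Nat.eq_zero_or_pos m' with h0 | h0
        · rw [h0, mul_zero] at hm'; omega
        · exact h0
      have h1 : (m' * q) * p ∈ A := by
        have : (m' * q) * p = m * q := by rw [hm']; ring
        rwa [this]
      have h2 : (m' * q) * p0 ≤ N := by
        have h3 : (m' * q) * p0 ≤ (m' * q) * p := Nat.mul_le_mul_left _ hl.le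
        have h4 := (Finset.mem_Icc.1 (hA h1)).2
        omega
      have h3 := hE (m' * q) p p0 hp hp0 hc0.symm h1 h2
      have h4 := hmin (m' * p0) (by
        have : m' * p0 * q = (m' * q) * p0 := by ring
        rwa [this])
      have h5 : m' * p0 < m' * p := Nat.mul_lt_mul_of_pos_left hl hm'pos
      rw [mul_comm m' p, ← hm'] at h5
      omega
    obtain ⟨D, w, hD1, hD0, hw1, hDw⟩ := kpow (k := k) P0 hP0 m hm (by omega) hfac
    have hsz : ((a * 1 * D : ℕ) : ℝ) ≤ (Y : ℝ) ^ (1 - (1 / 2 : ℝ)) := by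
      have h1 : a * 1 * D ≤ a * D0 := by rw [mul_one]; exact Nat.mul_le_mul_left _ hD0
      have h2 : ((a * D0 : ℕ) : ℝ) = (((a * D0 : ℕ) : ℝ) ^ (2 : ℕ)) ^ (1 - (1 / 2 : ℝ)) := by
        rw [← Real.rpow_natCast, ← Real.rpow_mul (Nat.cast_nonneg _)]
        norm_num
      calc ((a * 1 * D : ℕ) : ℝ) ≤ ((a * D0 : ℕ) : ℝ) := by exact_mod_cast h1
        _ = (((a * D0 : ℕ) : ℝ) ^ (2 : ℕ)) ^ (1 - (1 / 2 : ℝ)) := h2
        _ ≤ (Y : ℝ) ^ (1 - (1 / 2 : ℝ)) := by
          apply Real.rpow_le_rpow (by positivity)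
          · have : (a * D0) ^ 2 ≤ Y := le_max_right _ _
            exact_mod_cast this
          · norm_num
    obtain ⟨p, p', t, hp, hp', hcp, hcp', -, -, ht, hpp', hY⟩ :=
      hN0 Y (le_max_left _ _) 1 D le_rfl hD1 hsz
    rw [one_mul] at hY
    have hle : p ≤ p' := by rw [hpp']; exact Nat.le_add_right _ _
    have hb : ∀ s : ℕ, s ≤ Y → m * s ≤ N := fun s hs =>
      (Nat.mul_le_mul_left m (hs.trans hlt.le)).trans hmq.2
    have h1 : m * p ∈ A := hE m q p hq hp (hqv.trans hcp.symm) hmA (hb p (hle.trans hY))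
    have h2 : m * p' ∈ A := hE m q p' hq hp' (hqv.trans hcp'.symm) hmA (hb p' hY)
    refine hM _ h1 _ h2 (w * t) (Nat.mul_pos hw1 ht) ?_
    rw [mul_pow, ← hDw, hpp']
    ring

theorem rowAll (h : StPair) : StAll := by
  intro a k ha hk r col hv
  choose Q hQ using fun v => one_colour h a k ha hk r col v (hv v)
  refine ⟨Finset.univ.sup Q, fun N A hA hE hM n hn p hp hpn => ?_⟩
  exact (hQ (col p) N A hA hE hM n hn p hp hpn rfl).trans
    (Finset.le_sup (f := Q) (Finset.mem_univ (col p)))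

end Vale.Agent.P042.H411
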