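import Vale.Agent.P042.R2.H757.SpecA

set_option autoImplicit false

/-! # P042: row ALLU -/

namespace Vale.Agent.P042.H411.U

open Finset Vale.Agent.P042.H757 Vale.Agent.P042.H757.U

theorem kpow {k : ℕ} (P0 : Finset ℕ) (hP : ∀ p ∈ P0, p.Prime) (m : ℕ) (hm : 1 ≤ m)
    (hk : 1 ≤ k) (hf : ∀ p : ℕ, p.Prime → p ∣ m → p ∈ P0) :
    ∃ D w : ℕ, 1 ≤ D ∧ D ≤ ∏ p ∈ P0, p ^ k ∧ 1 ≤ w ∧ m * D = w ^ k := by
  refine ⟨∏ p ∈ P0, p ^ (k - m.factorization p % k), ∏ p ∈ P0, p ^ (m.factorization p / k + 1),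
    ?_, ?_, ?_, ?_⟩
  · exact Nat.succ_le_of_lt (Finset.prod_pos fun p hp => pow_pos (hP p hp).pos _)
  · exact Finset.prod_le_prod' fun p hp =>
      Nat.pow_le_pow_right (hP p hp).pos (Nat.sub_le _ _)
  · exact Nat.succ_le_of_lt (Finset.prod_pos fun p hp => pow_pos (hP p hp).pos _)
  · have h1 : m = ∏ p ∈ P0, p ^ (m.factorization p) := by
      conv_lhs => rw [← Nat.prod_factorization_pow_eq_self (n := m) (by omega)]
      refine Finsupp.prod_of_support_subset _ ?_ _ (fun p _ => pow_zero p)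
      intro p hp
      rw [Nat.support_factorization, Nat.mem_primeFactors] at hp
      exact hf p hp.1 hp.2.1
    have h4 : m * ∏ p ∈ P0, p ^ (k - m.factorization p % k) =
        (∏ p ∈ P0, p ^ (m.factorization p)) * ∏ p ∈ P0, p ^ (k - m.factorization p % k) := by
      rw [← h1]
    rw [h4, ← Finset.prod_mul_distrib, ← Finset.prod_pow]
    refine Finset.prod_congr rfl fun p _ => ?_
    rw [← pow_add, ← pow_mul]
    congr 1
    have h2 := Nat.mod_add_div (m.factorization p) k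
    have h3 := Nat.mod_lt (m.factorization p) (show k > 0 by omega)
    rw [add_mul, mul_comm (m.factorization p / k) k]
    omega

/-- a rich set contains a small prime -/
theorem exists_small {c : ℝ} {x0 : ℕ} {P : Set ℕ} (h : RichSet c x0 P) :
    ∃ q : ℕ, q ≤ max x0 1 ∧ q.Prime ∧ q ∈ P := by
  have h1 := h (max x0 1) (le_max_left _ _)
  have h2 : (0:ℝ) < ((max x0 1 : ℕ) : ℝ) := by
    have : 0 < max x0 1 := lt_max_of_lt_right one_pos
    exact_mod_cast this
  have h3 : (0:ℝ) < ({p : ℕ | p ≤ max x0 1 ∧ p.Prime ∧ p ∈ P}.ncard : ℝ) :=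
    lt_of_lt_of_le (mul_pos h2 (Real.exp_pos _)) h1
  have h4 : {p : ℕ | p ≤ max x0 1 ∧ p.Prime ∧ p ∈ P}.ncard ≠ 0 := by
    intro h0; rw [h0] at h3; simp at h3
  obtain ⟨q, hq⟩ := Set.nonempty_of_ncard_ne_zero h4
  exact ⟨q, hq⟩

theorem rowAllU (h : StPairU) : StAllU := by
  classical
  intro a k ha hk c hc x0 t0
  obtain ⟨N0, hN0⟩ := h a k ha hk c hc x0 (1 / 2) (by norm_num) (by norm_num)
  let P0 : Finset ℕ := (Finset.range (max t0 (max x0 1) + 1)).filter Nat.Prime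
  have hP0 : ∀ p ∈ P0, p.Prime := fun p hp => (Finset.mem_filter.1 hp).2
  let D0 : ℕ := ∏ p ∈ P0, p ^ k
  let Y : ℕ := max N0 ((a * D0) ^ 2)
  refine ⟨max Y t0, ?_⟩
  intro T col hT hrich N A hA hE hM n hn q hq hqn
  by_cases hqT : q ∈ T
  · exact (hT q hqT).trans (le_max_right _ _)
  refine le_trans ?_ (le_max_left _ _)
  by_contra hlt
  have hlt : Y < q := not_le.1 hlt
  have hex : ∃ m, m * q ∈ A := by
    obtain ⟨c, rfl⟩ := hqn
    exact ⟨c, by rwa [mul_comm]⟩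
  let m := Nat.find hex
  have hmA : m * q ∈ A := Nat.find_spec hex
  have hmin : ∀ m', m' * q ∈ A → m ≤ m' := fun m' h' => Nat.find_min' hex h'
  have hmq := Finset.mem_Icc.1 (hA hmA)
  have hm : 1 ≤ m := by
    rcases Nat.eq_zero_or_pos m with h0 | h0
    · rw [h0, zero_mul] at hmq; omega
    · exact h0
  have hfac : ∀ p : ℕ, p.Prime → p ∣ m → p ∈ P0 := by
    intro p hp hpm
    by_contra hn
    have hbig : max t0 (max x0 1) < p := by
      by_contra hle
      exact hn (Finset.mem_filter.2 ⟨Finset.mem_range.2 (by omega), hp⟩)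
    have hpT : p ∉ T := fun hpT => by
      have := hT p hpT
      have := le_max_left t0 (max x0 1)
      omega
    obtain ⟨p0, hp0x, hp0, hp0T, hc0⟩ := exists_small (hrich p hp hpT)
    have hl : p0 < p := by
      have := le_max_right t0 (max x0 1)
      omega
    obtain ⟨m', hm'⟩ := hpm
    have hm'pos : 0 < m' := by
      rcases Nat.eq_zero_or_pos m' with h0 | h0
      · rw [h0, mul_zero] at hm'; omega
      · exact h0
    have h1 : (m' * q) * p ∈ A := by
      have : (m' * q) * p = m * q := by rw [hm']; ring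
      rwa [this]
    have h2 : (m' * q) * p0 ≤ N := by
      have h3 : (m' * q) * p0 ≤ (m' * q) * p := Nat.mul_le_mul_left _ hl.le
      have h4 := (Finset.mem_Icc.1 (hA h1)).2
      omega
    have h3 := hE (m' * q) p p0 hp hp0 hpT hp0T hc0.symm h1 h2
    have h4 := hmin (m' * p0) (by
      have : m' * p0 * q = (m' * q) * p0 := by ring
      rwa [this])
    have h5 : m' * p0 < m' * p := Nat.mul_lt_mul_of_pos_left hl hm'pos
    rw [mul_comm m' p, ← hm'] at h5
    omega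
  obtain ⟨D, w, hD1, hD0, hw1, hDw⟩ := kpow (k := k) P0 hP0 m hm (by omega) hfac
  have hsz : ((a * 1 * D : ℕ) : ℝ) ≤ (Y : ℝ) ^ (1 - (1 / 2 : ℝ)) := by
    have h1 : a * 1 * D ≤ a * D0 := by rw [mul_one]; exact Nat.mul_le_mul_left _ hD0
    have h2 : ((a * D0 : ℕ) : ℝ) = (((a * D0 : ℕ) : ℝ) ^ (2 : ℕ)) ^ (1 - (1 / 2 : ℝ)) := by
      rw [← Real.rpow_natCast, ← Real.rpow_mul (Nat.cast_nonneg _)]
      norm_num
    calc ((a * 1 * D : ℕ) : ℝ) ≤ ((a * D0 : ℕ) : ℝ) := by exact_mod_cast h1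
      _ = (((a * D0 : ℕ) : ℝ) ^ (2 : ℕ)) ^ (1 - (1 / 2 : ℝ)) := h2
      _ ≤ (Y : ℝ) ^ (1 - (1 / 2 : ℝ)) := by
        apply Real.rpow_le_rpow (by positivity)
        · have : (a * D0) ^ 2 ≤ Y := le_max_right _ _
          exact_mod_cast this
        · norm_num
  obtain ⟨p, p', t, hp, hp', hcp, hcp', -, -, ht, hpp', hY⟩ :=
    hN0 _ (hrich q hq hqT) Y (le_max_left _ _) 1 D le_rfl hD1 hsz
  rw [one_mul] at hY
  have hle : p ≤ p' := by rw [hpp']; exact Nat.le_add_right _ _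
  have hb : ∀ s : ℕ, s ≤ Y → m * s ≤ N := fun s hs =>
    (Nat.mul_le_mul_left m (hs.trans hlt.le)).trans hmq.2
  have h1 : m * p ∈ A := hE m q p hq hp hqT hcp.1 hcp.2.symm hmA (hb p (hle.trans hY))
  have h2 : m * p' ∈ A := hE m q p' hq hp' hqT hcp'.1 hcp'.2.symm hmA (hb p' hY)
  refine hM _ h1 _ h2 (w * t) (Nat.mul_pos hw1 ht) ?_
  rw [mul_pow, ← hDw, hpp']
  ring

end Vale.Agent.P042.H411.U
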